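import Vale.Agent.Lib.P356.helper23.Defs

/-!
# P356, pool job C: the cut rank of a local operator applied to a product vector

If `T` acts on `C ∪ Aᶜ` with `C ⊆ A` and `φ` is a product vector across the cut between `A` and
its complement, then the coefficient matrix of `T *ᵥ φ` across that cut factors through pairs of
configurations on `C`, so its rank is at most `q ^ (2 |C|)`.
-/

namespace Vale.Agent.Lib.P356.H52

open Matrix
open Vale.Agent.Lib.P356

section

variable {Λ : Type*} [Fintype Λ] [DecidableEq Λ] {q : ℕ}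

/-- Restriction of a configuration on `A` to `C ⊆ A`. -/
def resC (A C : Finset Λ) (hC : C ⊆ A) (a : {x // x ∈ A} → Fin q) : {x // x ∈ C} → Fin q :=
  fun x => a ⟨x.1, hC x.2⟩

/-- Extension of a configuration on `C` to `A` by the value `0` off `C`. -/
def extZero [NeZero q] (A C : Finset Λ) (c : {x // x ∈ C} → Fin q) : {x // x ∈ A} → Fin q :=
  fun x => if h : x.1 ∈ C then c ⟨x.1, h⟩ else 0

omit [Fintype Λ] in
theorem glue_mem (A : Finset Λ) (u : {x // x ∈ A} → Fin q) (v : {x // x ∉ A} → Fin q)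
    (x : Λ) (hx : x ∈ A) : glue A u v x = u ⟨x, hx⟩ := by
  unfold glue
  rw [dif_pos hx]

omit [Fintype Λ] in
theorem glue_not_mem (A : Finset Λ) (u : {x // x ∈ A} → Fin q) (v : {x // x ∉ A} → Fin q)
    (x : Λ) (hx : x ∉ A) : glue A u v x = v ⟨x, hx⟩ := by
  unfold glue
  rw [dif_neg hx]

/-- Configurations are pairs (configuration on `A`, configuration off `A`). -/
def glueEquiv (A : Finset Λ) :
    (({x // x ∈ A} → Fin q) × ({x // x ∉ A} → Fin q)) ≃ Conf Λ q where
  toFun p := glue A p.1 p.2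
  invFun κ := (fun x => κ x.1, fun x => κ x.1)
  left_inv := by
    rintro ⟨a, b⟩
    refine Prod.ext ?_ ?_
    · funext x
      show glue A a b x.1 = a x
      rw [glue_mem A a b x.1 x.2]
    · funext x
      show glue A a b x.1 = b x
      rw [glue_not_mem A a b x.1 x.2]
  right_inv := by
    intro κ
    funext x
    show glue A (fun x => κ x.1) (fun x => κ x.1) x = κ x
    by_cases hx : x ∈ A
    · rw [glue_mem A _ _ x hx]
    · rw [glue_not_mem A _ _ x hx]

/-- The right factor. -/
def cutV [NeZero q] (A C : Finset Λ) (T : Matrix (Conf Λ q) (Conf Λ q) ℂ)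
    (g : ({x // x ∉ A} → Fin q) → ℂ) :
    Matrix (({x // x ∈ C} → Fin q) × ({x // x ∈ C} → Fin q)) ({x // x ∉ A} → Fin q) ℂ :=
  Matrix.of fun j b =>
    ∑ b', T (glue A (extZero A C j.1) b) (glue A (extZero A C j.2) b') * g b'

/-- The left factor. -/
def cutU (A C : Finset Λ) (hC : C ⊆ A) (f : ({x // x ∈ A} → Fin q) → ℂ) :
    Matrix ({x // x ∈ A} → Fin q) (({x // x ∈ C} → Fin q) × ({x // x ∈ C} → Fin q)) ℂ :=
  Matrix.of fun a j =>
    if resC A C hC a = j.1 then
      ∑ a', (if resC A C hC a' = j.2 then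
        (if (∀ x : {x // x ∈ A}, x.1 ∉ C → a x = a' x) then f a' else 0) else 0)
    else 0

/-- The entries of a matrix supported on `C ∪ Aᶜ`, in the glued coordinates. -/
theorem entry_eq [NeZero q] (A C : Finset Λ) (hC : C ⊆ A)
    (T : Matrix (Conf Λ q) (Conf Λ q) ℂ) (hT : SupportedOn (C ∪ Aᶜ) T)
    (a a' : {x // x ∈ A} → Fin q) (b b' : {x // x ∉ A} → Fin q) :
    T (glue A a b) (glue A a' b') =
      if (∀ x : {x // x ∈ A}, x.1 ∉ C → a x = a' x) then
        T (glue A (extZero A C (resC A C hC a)) b) (glue A (extZero A C (resC A C hC a')) b')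
      else 0 := by
  have hext : ∀ (u : {x // x ∈ A} → Fin q) (v : {x // x ∉ A} → Fin q) (x : Λ),
      x ∈ C ∪ Aᶜ → glue A u v x = glue A (extZero A C (resC A C hC u)) v x := by
    intro u v x hx
    by_cases hxA : x ∈ A
    · have hxC : x ∈ C := by
        rcases Finset.mem_union.mp hx with h | h
        · exact h
        · exact absurd hxA (Finset.mem_compl.mp h)
      rw [glue_mem A u v x hxA, glue_mem A _ v x hxA]
      show u ⟨x, hxA⟩ = if h : x ∈ C then resC A C hC u ⟨x, h⟩ else 0
      rw [dif_pos hxC]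
      rfl
    · rw [glue_not_mem A u v x hxA, glue_not_mem A _ v x hxA]
  have hoff : ∀ x : Λ, x ∉ C ∪ Aᶜ → x ∈ A ∧ x ∉ C := by
    intro x hx
    refine ⟨?_, fun hxC => hx (Finset.mem_union_left _ hxC)⟩
    by_contra hxA
    exact hx (Finset.mem_union_right _ (Finset.mem_compl.mpr hxA))
  by_cases h : ∀ x : {x // x ∈ A}, x.1 ∉ C → a x = a' x
  · rw [if_pos h]
    refine hT.2 _ _ _ _ (hext a b) (hext a' b') ?_ ?_
    · intro x hx
      obtain ⟨hxA, hxC⟩ := hoff x hx
      rw [glue_mem A a b x hxA, glue_mem A a' b' x hxA]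
      exact h ⟨x, hxA⟩ hxC
    · intro x hx
      obtain ⟨hxA, hxC⟩ := hoff x hx
      rw [glue_mem A _ b x hxA, glue_mem A _ b' x hxA]
      show (if h : x ∈ C then resC A C hC a ⟨x, h⟩ else 0)
        = (if h : x ∈ C then resC A C hC a' ⟨x, h⟩ else 0)
      rw [dif_neg hxC, dif_neg hxC]
  · rw [if_neg h]
    by_contra hne
    apply h
    intro x hxC
    have hx : x.1 ∉ C ∪ Aᶜ := by
      intro hx
      rcases Finset.mem_union.mp hx with h1 | h1
      · exact hxC h1
      · exact (Finset.mem_compl.mp h1) x.2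
    have h2 := hT.1 _ _ hne x.1 hx
    rw [glue_mem A a b x.1 x.2, glue_mem A a' b' x.1 x.2] at h2
    exact h2

/-- The factorization of the cut matrix. -/
theorem cut_factor [NeZero q] (A C : Finset Λ) (hC : C ⊆ A)
    (T : Matrix (Conf Λ q) (Conf Λ q) ℂ) (hT : SupportedOn (C ∪ Aᶜ) T)
    (f : ({x // x ∈ A} → Fin q) → ℂ) (g : ({x // x ∉ A} → Fin q) → ℂ)
    (φ : Conf Λ q → ℂ) (hφ : ∀ τ, φ τ = f (fun x => τ x.1) * g (fun x => τ x.1)) :
    cutMatrix A (T *ᵥ φ) = cutU A C hC f * cutV A C T g := by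
  funext a b
  -- the middle expression
  have hL : cutMatrix A (T *ᵥ φ) a b
      = ∑ a', (if (∀ x : {x // x ∈ A}, x.1 ∉ C → a x = a' x) then f a' else 0)
          * cutV A C T g (resC A C hC a, resC A C hC a') b := by
    have h1 : cutMatrix A (T *ᵥ φ) a b = ∑ κ, T (glue A a b) κ * φ κ := rfl
    have h2 : ∑ κ, T (glue A a b) κ * φ κ
        = ∑ p : ({x // x ∈ A} → Fin q) × ({x // x ∉ A} → Fin q),
            T (glue A a b) (glue A p.1 p.2) * (f p.1 * g p.2) := by
      rw [← Equiv.sum_comp (glueEquiv A)]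
      refine Finset.sum_congr rfl fun p _ => ?_
      have hp : φ (glueEquiv A p) = f p.1 * g p.2 := by
        rw [hφ]
        have e := (glueEquiv A).left_inv p
        have e1 : (fun x : {x // x ∈ A} => glueEquiv A p x.1) = p.1 := congrArg Prod.fst e
        have e2 : (fun x : {x // x ∉ A} => glueEquiv A p x.1) = p.2 := congrArg Prod.snd e
        rw [e1, e2]
      rw [hp]
      rfl
    rw [h1, h2, Fintype.sum_prod_type]
    refine Finset.sum_congr rfl fun a' _ => ?_
    have h3 : ∀ b', T (glue A a b) (glue A a' b') * (f a' * g b')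
        = (if (∀ x : {x // x ∈ A}, x.1 ∉ C → a x = a' x) then f a' else 0)
          * (T (glue A (extZero A C (resC A C hC a)) b)
              (glue A (extZero A C (resC A C hC a')) b') * g b') := by
      intro b'
      rw [entry_eq A C hC T hT a a' b b']
      by_cases hc : ∀ x : {x // x ∈ A}, x.1 ∉ C → a x = a' x
      · rw [if_pos hc, if_pos hc]
        ring
      · rw [if_neg hc, if_neg hc, zero_mul, zero_mul]
    rw [Finset.sum_congr rfl fun b' _ => h3 b', ← Finset.mul_sum]
    rfl
  have hR : (cutU A C hC f * cutV A C T g) a b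
      = ∑ a', (if (∀ x : {x // x ∈ A}, x.1 ∉ C → a x = a' x) then f a' else 0)
          * cutV A C T g (resC A C hC a, resC A C hC a') b := by
    rw [Matrix.mul_apply, Fintype.sum_prod_type]
    have h1 : ∀ c2 : {x // x ∈ C} → Fin q,
        ∑ c1 : {x // x ∈ C} → Fin q, cutU A C hC f a (c2, c1) * cutV A C T g (c2, c1) b
        = if resC A C hC a = c2 then
            ∑ c1 : {x // x ∈ C} → Fin q,
              (∑ a', (if resC A C hC a' = c1 then
                (if (∀ x : {x // x ∈ A}, x.1 ∉ C → a x = a' x) then f a' else 0) else 0))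
              * cutV A C T g (c2, c1) b
          else 0 := by
      intro c2
      by_cases hc : resC A C hC a = c2
      · rw [if_pos hc]
        refine Finset.sum_congr rfl fun c1 _ => ?_
        show (if resC A C hC a = c2 then _ else 0) * _ = _
        rw [if_pos hc]
      · rw [if_neg hc]
        refine Finset.sum_eq_zero fun c1 _ => ?_
        show (if resC A C hC a = c2 then _ else 0) * _ = 0
        rw [if_neg hc, zero_mul]
    rw [Finset.sum_congr rfl fun c2 _ => h1 c2, Fintype.sum_ite_eq]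
    have h2 : ∀ c1 : {x // x ∈ C} → Fin q,
        (∑ a', (if resC A C hC a' = c1 then
            (if (∀ x : {x // x ∈ A}, x.1 ∉ C → a x = a' x) then f a' else 0) else 0))
          * cutV A C T g (resC A C hC a, c1) b
        = ∑ a', (if resC A C hC a' = c1 then
            (if (∀ x : {x // x ∈ A}, x.1 ∉ C → a x = a' x) then f a' else 0)
              * cutV A C T g (resC A C hC a, c1) b else 0) := by
      intro c1
      rw [Finset.sum_mul]
      refine Finset.sum_congr rfl fun a' _ => ?_
      by_cases hc : resC A C hC a' = c1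
      · rw [if_pos hc, if_pos hc]
      · rw [if_neg hc, if_neg hc, zero_mul]
    rw [Finset.sum_congr rfl fun c1 _ => h2 c1, Finset.sum_comm]
    refine Finset.sum_congr rfl fun a' _ => ?_
    exact Fintype.sum_ite_eq (resC A C hC a') (fun c1 =>
      (if (∀ x : {x // x ∈ A}, x.1 ∉ C → a x = a' x) then f a' else 0)
        * cutV A C T g (resC A C hC a, c1) b)
  rw [hL, hR]

theorem rank_cut_le [NeZero q] (A C : Finset Λ) (hC : C ⊆ A)
    (T : Matrix (Conf Λ q) (Conf Λ q) ℂ) (hT : SupportedOn (C ∪ Aᶜ) T)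
    (f : ({x // x ∈ A} → Fin q) → ℂ) (g : ({x // x ∉ A} → Fin q) → ℂ)
    (φ : Conf Λ q → ℂ) (hφ : ∀ τ, φ τ = f (fun x => τ x.1) * g (fun x => τ x.1)) :
    (cutMatrix A (T *ᵥ φ)).rank ≤ q ^ (2 * C.card) := by
  rw [cut_factor A C hC T hT f g φ hφ]
  have hcard : Fintype.card (({x // x ∈ C} → Fin q) × ({x // x ∈ C} → Fin q))
      = q ^ (2 * C.card) := by
    rw [Fintype.card_prod, Fintype.card_fun, Fintype.card_fin, Fintype.card_coe, two_mul,
      pow_add]
  calc (cutU A C hC f * cutV A C T g).rank ≤ (cutU A C hC f).rank :=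
        Matrix.rank_mul_le_left _ _
    _ ≤ Fintype.card (({x // x ∈ C} → Fin q) × ({x // x ∈ C} → Fin q)) :=
        Matrix.rank_le_card_width _
    _ = q ^ (2 * C.card) := hcard

end

end Vale.Agent.Lib.P356.H52
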